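import Vale.Agent.Lib.P343.Splice

/-!
The one-way automaton: its language consists of the words with a `sep`-terminated group that is a
sequence of pairs `A a, B b` with `a` and `b` meeting.
-/

namespace Vale.Agent.Lib.P343

open Relation

/-- The input letters. -/
inductive Letter (h : ℕ) where
  | A : Finset (Fin h) → Letter h
  | B : Finset (Fin h) → Letter h
  | sep : Letter h
  deriving Fintype

/-- The states. -/
inductive St (h : ℕ) where
  | skip : St h
  | ver : St h
  | fin : St h
  | car : Fin h → St h
  deriving Fintype

variable {h : ℕ}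

theorem St_card (h : ℕ) : Fintype.card (St h) ≤ h + 3 := by
  let f : St h → Fin h ⊕ Fin 3 := fun q =>
    match q with
    | .skip => Sum.inr 0
    | .ver => Sum.inr 1
    | .fin => Sum.inr 2
    | .car v => Sum.inl v
  have hf : Function.Injective f := by
    intro a b hab
    cases a <;> cases b <;> simp_all [f]
  have := Fintype.card_le_of_injective f hf
  simpa using this

/-- The transitions. -/
def ntrans : St h → Sym (Letter h) → St h → Prop
  | .skip, .left, q' => q' = .skip ∨ q' = .ver
  | .skip, .letter .sep, q' => q' = .skip ∨ q' = .ver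
  | .skip, .letter (.A _), q' => q' = .skip
  | .skip, .letter (.B _), q' => q' = .skip
  | .ver, .letter .sep, q' => q' = .fin
  | .ver, .letter (.A a), q' => ∃ v ∈ a, q' = .car v
  | .car v, .letter (.B b), q' => v ∈ b ∧ q' = .ver
  | _, _, _ => False

/-- The automaton. -/
def NN (h : ℕ) : TwoNFA (Letter h) (St h) where
  init := .skip
  acc q := q = .fin
  trans q s q' m := m = Move.R ∧ ntrans q s q'

theorem NN_oneWay (h : ℕ) : (NN h).OneWay := by
  intro q s q' hq
  exact absurd hq.1 (by simp)

/-- One-way acceptance from a state on the remaining input. -/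
def AF : St h → List (Letter h) → Prop
  | q, [] => q = .fin
  | q, c :: t => q = .fin ∨ ∃ q', ntrans q (.letter c) q' ∧ AF q' t

theorem AF_fin (z : List (Letter h)) : AF .fin z := by
  cases z with
  | nil => rfl
  | cons c t => exact Or.inl rfl

theorem run_sound (ρ : List (St h × ℕ)) (x z : List (Letter h)) (q : St h)
    (hchain : ((q, x.length + 1) :: ρ).IsChain ((NN h).Step (x ++ z)))
    (hlast : ∃ c' ∈ ((q, x.length + 1) :: ρ).getLast?, (NN h).acc c'.1) : AF q z := by
  induction ρ generalizing x z q with
  | nil =>
    obtain ⟨c', hc', hacc⟩ := hlast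
    simp at hc'
    subst hc'
    have hq : q = .fin := hacc
    subst hq
    exact AF_fin z
  | cons c₁ ρ ih =>
    rw [List.isChain_cons_cons] at hchain
    obtain ⟨hstep, hchain⟩ := hchain
    have hlast' : ∃ c' ∈ (c₁ :: ρ).getLast?, (NN h).acc c'.1 := by
      obtain ⟨c', hc', hacc⟩ := hlast
      refine ⟨c', ?_, hacc⟩
      rwa [List.getLast?_cons_cons] at hc'
    obtain ⟨q₁, i₁⟩ := c₁
    obtain ⟨_, s, m, hsym, ⟨hm, htr⟩, hmove⟩ := hstep
    subst hm
    simp only [reduceCtorEq, false_and, true_and, false_or, or_false] at hmove
    simp only at hsym htr hmove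
    subst hmove
    cases z with
    | nil =>
      exfalso
      have : s = Sym.right := by
        simp [tape] at hsym
        exact hsym.symm
      subst this
      cases q <;> cases q₁ <;> simp [ntrans] at htr
    | cons d z =>
      right
      have hs : s = Sym.letter d := by
        have := tape_mid x z d
        rw [this] at hsym
        exact (Option.some.inj hsym).symm
      subst hs
      refine ⟨q₁, htr, ?_⟩
      refine ih (x ++ [d]) z q₁ ?_ ?_
      · have e : x ++ [d] ++ z = x ++ d :: z := by simp
        have e2 : (x ++ [d]).length + 1 = x.length + 1 + 1 := by simp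
        rw [e, e2]
        exact hchain
      · have e2 : (x ++ [d]).length + 1 = x.length + 1 + 1 := by simp
        rw [e2]
        exact hlast'

theorem AF_complete (x z : List (Letter h)) (q : St h) (hz : AF q z) :
    ∃ c, ReflTransGen ((NN h).Step (x ++ z)) (q, x.length + 1) c ∧ (NN h).acc c.1 := by
  induction z generalizing x q with
  | nil =>
    exact ⟨_, ReflTransGen.refl, hz⟩
  | cons d z ih =>
    rcases hz with hz | ⟨q', h1, h2⟩
    · exact ⟨_, ReflTransGen.refl, hz⟩
    · obtain ⟨c, h3, h4⟩ := ih (x ++ [d]) q' h2
      refine ⟨c, ?_, h4⟩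
      have e : x ++ [d] ++ z = x ++ d :: z := by simp
      have e2 : (x ++ [d]).length + 1 = x.length + 1 + 1 := by simp
      rw [e, e2] at h3
      refine ReflTransGen.head ?_ h3
      exact step_R (tape_mid x z d) ⟨rfl, h1⟩ (by rw [tape_length]; simp only [List.length_append, List.length_cons]; omega)

theorem NN_accepts_sound (w : List (Letter h)) (hw : (NN h).Accepts w) : AF .skip w ∨ AF .ver w := by
  obtain ⟨ρ, hhead, hchain, hlast⟩ := hw
  cases ρ with
  | nil => simp at hhead
  | cons c ρ =>
    simp only [List.head?_cons, Option.some.injEq] at hhead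
    subst hhead
    cases ρ with
    | nil =>
      exfalso
      obtain ⟨c', hc', hacc⟩ := hlast
      simp at hc'
      subst hc'
      cases hacc
    | cons c₁ ρ =>
      rw [List.isChain_cons_cons] at hchain
      obtain ⟨hstep, hchain⟩ := hchain
      have hlast' : ∃ c' ∈ (c₁ :: ρ).getLast?, (NN h).acc c'.1 := by
        obtain ⟨c', hc', hacc⟩ := hlast
        refine ⟨c', ?_, hacc⟩
        rwa [List.getLast?_cons_cons] at hc'
      obtain ⟨q₁, i₁⟩ := c₁
      obtain ⟨_, s, m, hsym, ⟨hm, htr⟩, hmove⟩ := hstep
      subst hm
      simp only [reduceCtorEq, false_and, true_and, false_or, or_false] at hmove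
      simp only at hsym htr hmove
      subst hmove
      have hs : s = Sym.left := by
        simp [tape] at hsym
        exact hsym.symm
      subst hs
      have h1 : AF q₁ w := run_sound ρ [] w q₁ (by simpa using hchain) (by simpa using hlast')
      have h2 : ntrans (St.skip : St h) Sym.left q₁ := htr
      rcases h2 with rfl | rfl
      · exact Or.inl h1
      · exact Or.inr h1

theorem NN_accepts_complete (w : List (Letter h)) (hw : AF .skip w ∨ AF .ver w) :
    (NN h).Accepts w := by
  have key : ∀ q, ntrans (St.skip : St h) Sym.left q → AF q w → (NN h).Accepts w := by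
    intro q hq hq'
    obtain ⟨c, h1, h2⟩ := AF_complete [] w q hq'
    simp only [List.nil_append, List.length_nil] at h1
    refine accepts_of_reach (c := c) (ReflTransGen.head ?_ h1) h2
    exact step_R (i := 0) (s := Sym.left) (by simp [tape]) ⟨rfl, hq⟩ (by rw [tape_length]; omega)
  rcases hw with hw | hw
  · exact key _ (Or.inl rfl) hw
  · exact key _ (Or.inr rfl) hw

/-- Sequences of pairs `A a, B b` with `a` and `b` meeting. -/
inductive IsP : List (Letter h) → Prop
  | nil : IsP []
  | cons (a b : Finset (Fin h)) (t : List (Letter h)) :
      (a ∩ b).Nonempty → IsP t → IsP (.A a :: .B b :: t)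

theorem IsP.append {x z : List (Letter h)} (hx : IsP x) (hz : IsP z) : IsP (x ++ z) := by
  induction hx with
  | nil => exact hz
  | cons a b t hab _ ih => exact IsP.cons a b _ hab ih

theorem IsP.of_append {x z : List (Letter h)} (hx : IsP x) (hxz : IsP (x ++ z)) : IsP z := by
  induction hx with
  | nil => exact hxz
  | cons a b t hab _ ih =>
    cases hxz with
    | cons _ _ _ _ ht => exact ih ht

theorem IsP.noSep {x : List (Letter h)} (hx : IsP x) : Letter.sep ∉ x := by
  induction hx with
  | nil => simp
  | cons a b t _ _ ih => simp [ih]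

theorem AF_ver_isP (x t : List (Letter h)) (hx : Letter.sep ∉ x)
    (hf : AF .ver (x ++ Letter.sep :: t)) : IsP x := by
  induction hn : x.length using Nat.strong_induction_on generalizing x with
  | _ n ih =>
    cases x with
    | nil => exact IsP.nil
    | cons c x =>
      cases c with
      | sep => simp at hx
      | B b =>
        exfalso
        rcases hf with hf | ⟨q', hq, _⟩
        · cases hf
        · exact hq
      | A a =>
        rcases hf with hf | ⟨q', ⟨v, hv, rfl⟩, hf⟩
        · cases hf
        · cases x with
          | nil =>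
            exfalso
            rcases hf with hf | ⟨q', hq, _⟩
            · cases hf
            · exact hq
          | cons c x =>
            cases c with
            | sep => simp at hx
            | A a' =>
              exfalso
              rcases hf with hf | ⟨q', hq, _⟩
              · cases hf
              · exact hq
            | B b =>
              rcases hf with hf | ⟨q', ⟨hvb, rfl⟩, hf⟩
              · cases hf
              · have hx' : Letter.sep ∉ x := by
                  intro hmem
                  exact hx (by simp [hmem])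
                refine IsP.cons a b x ⟨v, by simp [hv, hvb]⟩ ?_
                exact ih x.length (by simp at hn; omega) x hx' hf rfl

theorem AF_ver_of_isP {y : List (Letter h)} (hy : IsP y) (t : List (Letter h)) :
    AF .ver (y ++ Letter.sep :: t) := by
  induction hy with
  | nil => exact Or.inr ⟨.fin, rfl, AF_fin t⟩
  | cons a b y' hab _ ih =>
    obtain ⟨v, hv⟩ := hab
    rw [Finset.mem_inter] at hv
    exact Or.inr ⟨.car v, ⟨v, hv.1, rfl⟩, Or.inr ⟨.ver, ⟨hv.2, rfl⟩, ih⟩⟩

theorem AF_skip_of_sep (x s : List (Letter h)) (hs : AF .skip s ∨ AF .ver s) :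
    AF .skip (x ++ Letter.sep :: s) := by
  induction x with
  | nil =>
    rcases hs with hs | hs
    · exact Or.inr ⟨.skip, Or.inl rfl, hs⟩
    · exact Or.inr ⟨.ver, Or.inr rfl, hs⟩
  | cons c x ih =>
    refine Or.inr ⟨.skip, ?_, ih⟩
    cases c with
    | A a => rfl
    | B b => rfl
    | sep => exact Or.inl rfl

theorem AF_skip_split (x s : List (Letter h)) (hx : Letter.sep ∉ x)
    (hf : AF .skip (x ++ Letter.sep :: s)) : AF .skip s ∨ AF .ver s := by
  induction x with
  | nil =>
    rcases hf with hf | ⟨q', hq, hf⟩
    · cases hf
    · rcases hq with rfl | rfl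
      · exact Or.inl hf
      · exact Or.inr hf
  | cons c x ih =>
    have hx' : Letter.sep ∉ x := fun hmem => hx (by simp [hmem])
    rcases hf with hf | ⟨q', hq, hf⟩
    · cases hf
    · cases c with
      | A a =>
        have : q' = .skip := hq
        subst this
        exact ih hx' hf
      | B b =>
        have : q' = .skip := hq
        subst this
        exact ih hx' hf
      | sep => simp at hx

/-- Repetition of a list. -/
def rep {α : Type} (x : List α) (n : ℕ) : List α := (List.replicate n x).flatten

theorem rep_zero {α : Type} (x : List α) : rep x 0 = [] := rfl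

theorem rep_succ {α : Type} (x : List α) (n : ℕ) : rep x (n + 1) = x ++ rep x n := by
  simp [rep, List.replicate_succ]

theorem rep_add {α : Type} (x : List α) (m n : ℕ) : rep x (m + n) = rep x m ++ rep x n := by
  rw [rep, rep, rep, List.replicate_add, List.flatten_append]

theorem rep_length {α : Type} (x : List α) (n : ℕ) : (rep x n).length = n * x.length := by
  induction n with
  | zero => simp [rep]
  | succ n ih => rw [rep_succ, List.length_append, ih]; ring

theorem rep_noSep {x : List (Letter h)} (hx : Letter.sep ∉ x) (n : ℕ) : Letter.sep ∉ rep x n := by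
  induction n with
  | zero => simp [rep]
  | succ n ih => rw [rep_succ]; simp [hx, ih]

theorem NN_rejects {W : List (Letter h)} (hW : Letter.sep ∉ W) (hP : ¬ IsP W) (M : ℕ) :
    ¬ (NN h).Accepts (rep (W ++ [Letter.sep]) M) := by
  intro hacc
  have hs := NN_accepts_sound _ hacc
  clear hacc
  induction M with
  | zero =>
    rw [rep_zero] at hs
    rcases hs with hs | hs <;> cases hs
  | succ M ih =>
    rw [rep_succ] at hs
    have e : W ++ [Letter.sep] ++ rep (W ++ [Letter.sep]) M =
        W ++ Letter.sep :: rep (W ++ [Letter.sep]) M := by simp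
    rw [e] at hs
    rcases hs with hs | hs
    · exact ih (AF_skip_split _ _ hW hs)
    · exact hP (AF_ver_isP _ _ hW hs)

theorem NN_accepts {W y : List (Letter h)} (hy : IsP y) (rest : List (Letter h)) (j : ℕ) :
    (NN h).Accepts (rep (W ++ [Letter.sep]) j ++ y ++ Letter.sep :: rest) := by
  apply NN_accepts_complete
  have hver := AF_ver_of_isP hy rest
  induction j with
  | zero => exact Or.inr (by simpa [rep_zero] using hver)
  | succ j ih =>
    rw [rep_succ]
    left
    have e : W ++ [Letter.sep] ++ rep (W ++ [Letter.sep]) j ++ y ++ Letter.sep :: rest =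
        W ++ Letter.sep :: (rep (W ++ [Letter.sep]) j ++ y ++ Letter.sep :: rest) := by simp
    rw [e]
    exact AF_skip_of_sep _ _ ih

end Vale.Agent.Lib.P343
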