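import Vale.Agent.Lib.P343.Semigroup

/-!
The monoid of binary relations on a finite type and the key lemma on powers of a relation all of
whose pairs of entries are contained in a common element of a group of relations.
-/

namespace Vale.Agent.Lib.P343

/-- Binary relations on `X`, as a monoid under composition. -/
def Mat (X : Type) : Type := X → X → Prop

instance (X : Type) : Monoid (Mat X) where
  mul a b := fun x z => ∃ y, a x y ∧ b y z
  one := fun x y => x = y
  mul_assoc a b c := by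
    funext x z
    apply propext
    constructor
    · rintro ⟨y, ⟨t, h1, h2⟩, h3⟩
      exact ⟨t, h1, y, h2, h3⟩
    · rintro ⟨t, h1, y, h2, h3⟩
      exact ⟨y, ⟨t, h1, h2⟩, h3⟩
  one_mul a := by
    funext x z
    apply propext
    constructor
    · rintro ⟨y, rfl, h⟩
      exact h
    · intro h
      exact ⟨x, rfl, h⟩
  mul_one a := by
    funext x z
    apply propext
    constructor
    · rintro ⟨y, h, rfl⟩
      exact h
    · intro h
      exact ⟨z, h, rfl⟩

instance (X : Type) [Finite X] : Finite (Mat X) :=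
  inferInstanceAs (Finite (X → X → Prop))

variable {X : Type}

theorem Mat.mul_apply (a b : Mat X) (x z : X) : (a * b) x z ↔ ∃ y, a x y ∧ b y z := Iff.rfl

theorem Mat.one_apply (x y : X) : (1 : Mat X) x y ↔ x = y := Iff.rfl

theorem Mat.mul_of {a b : Mat X} {x y z : X} (h1 : a x y) (h2 : b y z) : (a * b) x z :=
  ⟨y, h1, h2⟩

theorem Mat.path_of_pow (g : Mat X) (N : ℕ) (x y : X) (h : (g ^ N) x y) :
    ∃ γ : ℕ → X, γ 0 = x ∧ γ N = y ∧ ∀ t, t < N → g (γ t) (γ (t + 1)) := by
  induction N generalizing y with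
  | zero =>
    rw [pow_zero] at h
    exact ⟨fun _ => x, rfl, h, fun t ht => by omega⟩
  | succ n ih =>
    rw [pow_succ] at h
    obtain ⟨z, h1, h2⟩ := h
    obtain ⟨γ, h0, hn, hstep⟩ := ih z h1
    refine ⟨fun t => if t ≤ n then γ t else y, by simpa using h0, by simp, ?_⟩
    intro t ht
    by_cases htn : t + 1 ≤ n
    · simp only [htn, if_true, show t ≤ n by omega]
      exact hstep t (by omega)
    · have : t = n := by omega
      subst this
      simpa [hn] using h2

theorem Mat.loop_pow (ρ : Mat X) (x : X) (h : ρ x x) (n : ℕ) : (ρ ^ n) x x := by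
  induction n with
  | zero => rw [pow_zero]; rfl
  | succ n ih => rw [pow_succ]; exact ⟨x, ih, h⟩

section Key

variable [Fintype X]

/-- The key lemma. `Gp` is a group of relations with identity `e`. If any two entries of `g` lie in
a common element of `Gp`, then high powers of `g` are contained in `e`. -/
theorem key_lemma (e g : Mat X) (Gp : Set (Mat X)) (N : ℕ)
    (he : e * e = e) (hmul : ∀ a ∈ Gp, ∀ b ∈ Gp, a * b ∈ Gp)
    (hid : ∀ a ∈ Gp, e * a = a ∧ a * e = a)
    (hinv : ∀ a ∈ Gp, ∃ b ∈ Gp, a * b = e ∧ b * a = e)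
    (heg : e * g = g) (hge : g * e = g)
    (hpair : ∀ x y x' y', g x y → g x' y' → ∃ τ ∈ Gp, τ x y ∧ τ x' y')
    (hN1 : Fintype.card X ≤ N) (hN2 : ∀ l, 1 ≤ l → l ≤ Fintype.card X → l ∣ N)
    (x y : X) (hxy : (g ^ N) x y) : e x y := by
  -- finite order
  have hpowG : ∀ ρ ∈ Gp, ∀ k, ρ ^ (k + 1) ∈ Gp := by
    intro ρ hρ k
    induction k with
    | zero => simpa using hρ
    | succ k ih => rw [pow_succ]; exact hmul _ ih _ hρ
  have horder : ∀ ρ ∈ Gp, ∃ n, 1 ≤ n ∧ ρ ^ n = e := by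
    intro ρ hρ
    obtain ⟨n, hn, hidem⟩ := exists_idem_pow ρ
    refine ⟨n, hn, ?_⟩
    obtain ⟨k, rfl⟩ : ∃ k, n = k + 1 := ⟨n - 1, by omega⟩
    have hmem := hpowG ρ hρ k
    obtain ⟨b, _, _, hba⟩ := hinv _ hmem
    calc ρ ^ (k + 1) = e * ρ ^ (k + 1) := ((hid _ hmem).1).symm
      _ = b * ρ ^ (k + 1) * ρ ^ (k + 1) := by rw [hba]
      _ = b * ρ ^ (k + 1) := by rw [mul_assoc, hidem]
      _ = e := hba
  -- loops
  have hloop : ∀ ρ ∈ Gp, ∀ ρ' ∈ Gp, ρ' * ρ = e → ∀ z, ρ z z → ρ' z z ∧ e z z := by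
    intro ρ hρ ρ' hρ' hinv' z hz
    obtain ⟨n, hn, hρn⟩ := horder ρ hρ
    obtain ⟨k, rfl⟩ : ∃ k, n = k + 1 := ⟨n - 1, by omega⟩
    have hez : e z z := by rw [← hρn]; exact Mat.loop_pow ρ z hz _
    refine ⟨?_, hez⟩
    have : ρ' = e * ρ ^ k := by
      calc ρ' = ρ' * e := ((hid _ hρ').2).symm
        _ = ρ' * (ρ * ρ ^ k) := by rw [← pow_succ', hρn]
        _ = e * ρ ^ k := by rw [← mul_assoc, hinv']
    rw [this]
    exact ⟨z, hez, Mat.loop_pow ρ z hz k⟩
  -- the path and its periodic part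
  obtain ⟨γ, hγ0, hγN, hγ⟩ := Mat.path_of_pow g N x y hxy
  obtain ⟨i, j, hij, hγij, hjle⟩ : ∃ i j, i < j ∧ γ i = γ j ∧ j ≤ Fintype.card X := by
    have hcard : Fintype.card X < Fintype.card (Fin (Fintype.card X + 1)) := by simp
    obtain ⟨a, b, hab, hγab⟩ := Fintype.exists_ne_map_eq_of_card_lt
      (fun t : Fin (Fintype.card X + 1) => γ t) hcard
    have hab' : (a : ℕ) ≠ b := fun h => hab (Fin.ext h)
    rcases lt_or_gt_of_ne hab' with h | h
    · exact ⟨a, b, h, hγab, by omega⟩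
    · exact ⟨b, a, h, hγab.symm, by omega⟩
  obtain ⟨l, rfl⟩ : ∃ l, j = i + l := ⟨j - i, by omega⟩
  have hl : 1 ≤ l := by omega
  let c : ℕ → X := fun k => γ (i + k % l)
  have hc0 : c 0 = γ i := by simp [c]
  have hper : ∀ k, c (k + l) = c k := by
    intro k; simp [c]
  have hperm : ∀ k m, c (k + l * m) = c k := by
    intro k m
    simp [c]
  have hc : ∀ k, g (c k) (c (k + 1)) := by
    intro k
    have hr : k % l < l := Nat.mod_lt _ (by omega)
    have hk1 : k + 1 = l * (k / l) + (k % l + 1) := by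
      have := Nat.div_add_mod k l
      omega
    by_cases hlast : k % l + 1 < l
    · have hmod : (k + 1) % l = k % l + 1 := by
        rw [hk1, Nat.mul_add_mod, Nat.mod_eq_of_lt hlast]
      simp only [c, hmod]
      exact hγ _ (by omega)
    · have hlast' : k % l + 1 = l := by omega
      have hmod : (k + 1) % l = 0 := by
        rw [hk1, Nat.mul_add_mod, hlast', Nat.mod_self]
      simp only [c, hmod]
      have := hγ (i + k % l) (by omega)
      rw [show i + k % l + 1 = i + l by omega, ← hγij] at this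
      simpa using this
  -- relations along the cycle
  have hsig : ∀ s n, ∃ σ ∈ Gp, σ (c s) (c (s + n + 1)) := by
    intro s n
    induction n with
    | zero =>
      obtain ⟨τ, hτ, h1, _⟩ := hpair _ _ _ _ (hc s) (hc s)
      exact ⟨τ, hτ, h1⟩
    | succ n ih =>
      obtain ⟨σ, hσ, h1⟩ := ih
      obtain ⟨τ, hτ, h2, _⟩ := hpair _ _ _ _ (hc (s + n + 1)) (hc (s + n + 1))
      exact ⟨σ * τ, hmul _ hσ _ hτ, _, h1, h2⟩
  have hexact : ∀ τ ∈ Gp, ∀ τ' ∈ Gp, τ * τ' = e → τ' * τ = e → ∀ k,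
      τ (c k) (c (k + 1)) → τ' (c (k + 1)) (c k) := by
    intro τ hτ τ' hτ' h1 h2 k hk
    obtain ⟨σ, hσ, hs⟩ := hsig (k + 1) (2 * l - 2)
    have hs' : σ (c (k + 1)) (c k) := by
      have : k + 1 + (2 * l - 2) + 1 = k + l * 2 := by omega
      rw [this, hperm] at hs
      exact hs
    obtain ⟨σ', hσ', h3, h4⟩ := hinv _ hσ
    have hρ' : (σ' * τ') * (τ * σ) = e := by
      calc (σ' * τ') * (τ * σ) = σ' * (τ' * τ) * σ := by simp only [mul_assoc]
        _ = σ' * (e * σ) := by rw [h2, mul_assoc]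
        _ = e := by rw [(hid _ hσ).1, h4]
    obtain ⟨hl1, _⟩ := hloop (τ * σ) (hmul _ hτ _ hσ) (σ' * τ') (hmul _ hσ' _ hτ') hρ' (c k)
      ⟨c (k + 1), hk, hs'⟩
    obtain ⟨w, hw1, hw2⟩ := hl1
    have h5 : (σ * σ') (c (k + 1)) w := ⟨c k, hs', hw1⟩
    rw [h3] at h5
    have h6 : (e * τ') (c (k + 1)) (c k) := ⟨w, h5, hw2⟩
    rwa [(hid _ hτ').1] at h6
  have hc0loop : e (c 0) (c 0) := by
    obtain ⟨σ, hσ, hs⟩ := hsig 0 (l - 1)
    have : 0 + (l - 1) + 1 = 0 + l := by omega
    rw [this, hper] at hs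
    obtain ⟨σ', hσ', _, h4⟩ := hinv _ hσ
    exact (hloop σ hσ σ' hσ' h4 _ hs).2
  -- backward part
  have hback : ∀ d, d ≤ i → e (γ (i - d)) (c (l * i - d)) := by
    intro d
    induction d with
    | zero =>
      intro _
      have : c (l * i - 0) = c 0 := by
        have := hperm 0 i
        simpa using this
      rw [this, hc0]
      rw [hc0] at hc0loop
      simpa using hc0loop
    | succ d ih =>
      intro hd
      have ih' := ih (by omega)
      have hli : i ≤ l * i := Nat.le_mul_of_pos_left i (by omega)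
      obtain ⟨t, ht⟩ : ∃ t, t = i - (d + 1) := ⟨_, rfl⟩
      obtain ⟨m, hm⟩ : ∃ m, m = l * i - (d + 1) := ⟨_, rfl⟩
      rw [show i - d = t + 1 by omega, show l * i - d = m + 1 by omega] at ih'
      rw [← ht, ← hm]
      have h1 : g (γ t) (c (m + 1)) := by
        have h := Mat.mul_of (hγ t (by omega)) ih'
        rwa [hge] at h
      obtain ⟨τ, hτ, h2, h3⟩ := hpair _ _ _ _ h1 (hc m)
      obtain ⟨τ', hτ', h4, h5⟩ := hinv _ hτ
      have h6 := hexact τ hτ τ' hτ' h4 h5 m h3
      have h7 : (τ * τ') (γ t) (c m) := ⟨_, h2, h6⟩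
      rwa [h4] at h7
  -- forward part
  have hfwd : ∀ d, i + d ≤ N → e (c d) (γ (i + d)) := by
    intro d
    induction d with
    | zero =>
      intro _
      rw [hc0] at hc0loop ⊢
      simpa using hc0loop
    | succ d ih =>
      intro hd
      have ih' := ih (by omega)
      have h1 : g (c d) (γ (i + (d + 1))) := by
        have h := Mat.mul_of ih' (hγ (i + d) (by omega))
        rwa [heg] at h
      obtain ⟨τ, hτ, h2, h3⟩ := hpair _ _ _ _ h1 (hc d)
      obtain ⟨τ', hτ', h4, h5⟩ := hinv _ hτ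
      have h6 := hexact τ hτ τ' hτ' h4 h5 d h3
      have h7 : (τ' * τ) (c (d + 1)) (γ (i + (d + 1))) := ⟨_, h6, h2⟩
      rwa [h5] at h7
  -- conclusion
  have hiN : i ≤ N := by omega
  have hb := hback i le_rfl
  have hf := hfwd (N - i) (by omega)
  rw [show i + (N - i) = N by omega, hγN] at hf
  rw [Nat.sub_self, hγ0] at hb
  have hsame : c (l * i - i) = c (N - i) := by
    obtain ⟨q, hq⟩ := hN2 l hl (by omega)
    have hli : i ≤ l * i := Nat.le_mul_of_pos_left i (by omega)
    have h1 : c (l * i - i) = c (l * i - i + l * q) := (hperm _ _).symm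
    have h2 : c (N - i) = c (N - i + l * i) := (hperm _ _).symm
    rw [h1, h2]
    congr 1
    omega
  rw [hsame] at hb
  have hfin := Mat.mul_of hb hf
  rwa [he] at hfin

end Key

end Vale.Agent.Lib.P343
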