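import Vale.Agent.Lib.P343.Defs
import Vale.Agent.Lib.P343.KeyLemma

/-!
Crossing behaviours of a two-way automaton on a block of input cells, and the splice lemma: a block
crossed without internal turns may be replaced by a block with larger crossing behaviours.
-/

namespace Vale.Agent.Lib.P343

open Relation

variable {Sig Q : Type} (A : TwoNFA Sig Q)

/-- Stationary moves on a symbol. -/
def Stat (s : Sym Sig) : Q → Q → Prop := ReflTransGen (fun p q => A.trans p s q Move.S)

/-- The crossing relation of one symbol in direction `m`, with the extra point `none` standing for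
acceptance during the crossing. -/
def Tc (m : Move) (s : Sym Sig) : Mat (Option Q) := fun x y =>
  match x, y with
  | some p, some q => ∃ p', Stat A s p p' ∧ A.trans p' s q m
  | some p, none => ∃ p', Stat A s p p' ∧ A.acc p'
  | none, none => True
  | none, some _ => False

/-- Pairs of crossing relations, the left-crossing component with reversed product. -/
abbrev BM (Q : Type) : Type := Mat (Option Q) × (Mat (Option Q))ᵐᵒᵖ

/-- The behaviour of a word. -/
def Beh (x : List Sig) : BM Q :=
  (x.map fun c => (Tc A Move.R (Sym.letter c), MulOpposite.op (Tc A Move.L (Sym.letter c)))).prod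

theorem Beh_nil : Beh A [] = 1 := by simp [Beh]

theorem Beh_append (x y : List Sig) : Beh A (x ++ y) = Beh A x * Beh A y := by
  simp [Beh, List.prod_append]

/-- Right-crossing relation of a word. -/
def BR (x : List Sig) : Mat (Option Q) := (Beh A x).1

/-- Left-crossing relation of a word. -/
def BL (x : List Sig) : Mat (Option Q) := (Beh A x).2.unop

theorem BR_nil : BR A [] = 1 := by simp [BR, Beh_nil]

theorem BL_nil : BL A [] = 1 := by simp [BL, Beh_nil]

theorem BR_append (x y : List Sig) : BR A (x ++ y) = BR A x * BR A y := by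
  simp [BR, Beh_append]

theorem BL_append (x y : List Sig) : BL A (x ++ y) = BL A y * BL A x := by
  simp [BL, Beh_append]

theorem BR_singleton (c : Sig) : BR A [c] = Tc A Move.R (Sym.letter c) := by
  simp [BR, Beh]

theorem BL_singleton (c : Sig) : BL A [c] = Tc A Move.L (Sym.letter c) := by
  simp [BL, Beh]

theorem BR_cons (c : Sig) (x : List Sig) : BR A (c :: x) = Tc A Move.R (Sym.letter c) * BR A x := by
  rw [← BR_singleton, ← BR_append]; rfl

theorem BL_cons (c : Sig) (x : List Sig) : BL A (c :: x) = BL A x * Tc A Move.L (Sym.letter c) := by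
  rw [← BL_singleton, ← BL_append]; rfl

theorem Tc_none (m : Move) (s : Sym Sig) (z : Option Q) : Tc A m s none z ↔ z = none := by
  cases z <;> simp [Tc]

theorem BR_none (x : List Sig) (z : Option Q) : BR A x none z ↔ z = none := by
  induction x generalizing z with
  | nil => rw [BR_nil, Mat.one_apply]; exact eq_comm
  | cons c x ih =>
    rw [BR_cons, Mat.mul_apply]
    constructor
    · rintro ⟨y, h1, h2⟩
      rw [Tc_none] at h1
      subst h1
      exact (ih z).1 h2
    · rintro rfl
      exact ⟨none, (Tc_none _ _ _ _).2 rfl, (ih _).2 rfl⟩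

theorem BL_none (x : List Sig) (z : Option Q) : BL A x none z ↔ z = none := by
  induction x generalizing z with
  | nil => rw [BL_nil, Mat.one_apply]; exact eq_comm
  | cons c x ih =>
    rw [BL_cons, Mat.mul_apply]
    constructor
    · rintro ⟨y, h1, h2⟩
      rw [ih] at h1
      subst h1
      exact (Tc_none _ _ _ _).1 h2
    · rintro rfl
      exact ⟨none, (ih _).2 rfl, (Tc_none _ _ _ _).2 rfl⟩

/-! ### Tape access -/

theorem tape_length (w : List Sig) : (tape w).length = w.length + 2 := by simp [tape]

theorem tape_mid (x z : List Sig) (c : Sig) :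
    (tape (x ++ c :: z))[x.length + 1]? = some (Sym.letter c) := by
  simp [tape]

theorem tape_eq (u W v : List Sig) :
    tape (u ++ W ++ v) =
      (Sym.left :: u.map Sym.letter) ++ (W.map Sym.letter ++ (v.map Sym.letter ++ [Sym.right])) := by
  simp [tape]

theorem tape_prefix (u W W' v : List Sig) (i : ℕ) (hi : i ≤ u.length) :
    (tape (u ++ W ++ v))[i]? = (tape (u ++ W' ++ v))[i]? := by
  rw [tape_eq, tape_eq, List.getElem?_append_left (by simp; omega),
    List.getElem?_append_left (by simp; omega)]

theorem getElem?_splice {α : Type} (P X X' S : List α) (i : ℕ) (hi : P.length + X.length ≤ i) :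
    (P ++ (X ++ S))[i]? = (P ++ (X' ++ S))[i - X.length + X'.length]? := by
  rw [List.getElem?_append_right (by omega), List.getElem?_append_right (by omega),
    List.getElem?_append_right (by omega), List.getElem?_append_right (by omega)]
  congr 1
  omega

theorem tape_suffix (u W W' v : List Sig) (i : ℕ) (hi : u.length + W.length < i) :
    (tape (u ++ W ++ v))[i]? = (tape (u ++ W' ++ v))[i - W.length + W'.length]? := by
  rw [tape_eq, tape_eq]
  have := getElem?_splice (Sym.left :: u.map Sym.letter) (W.map Sym.letter) (W'.map Sym.letter)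
    (v.map Sym.letter ++ [Sym.right]) i (by simp; omega)
  simpa only [List.length_map] using this

theorem lt_of_getElem?_eq_some {α : Type} {l : List α} {i : ℕ} {s : α} (h : l[i]? = some s) :
    i < l.length := by
  by_contra hn
  rw [List.getElem?_eq_none (by omega)] at h
  cases h

/-! ### Steps -/

variable {A}

theorem step_R {w : List Sig} {q q' : Q} {i : ℕ} {s : Sym Sig}
    (hs : (tape w)[i]? = some s) (ht : A.trans q s q' Move.R) (hi : i + 1 < (tape w).length) :
    A.Step w (q, i) (q', i + 1) :=
  ⟨hi, s, Move.R, hs, ht, Or.inr (Or.inl ⟨rfl, rfl⟩)⟩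

theorem step_L {w : List Sig} {q q' : Q} {i : ℕ} {s : Sym Sig}
    (hs : (tape w)[i + 1]? = some s) (ht : A.trans q s q' Move.L) :
    A.Step w (q, i + 1) (q', i) := by
  have := lt_of_getElem?_eq_some hs
  exact ⟨by simp only; omega, s, Move.L, hs, ht, Or.inl ⟨rfl, rfl⟩⟩

theorem step_S {w : List Sig} {q q' : Q} {i : ℕ} {s : Sym Sig}
    (hs : (tape w)[i]? = some s) (ht : A.trans q s q' Move.S) :
    A.Step w (q, i) (q', i) :=
  ⟨lt_of_getElem?_eq_some hs, s, Move.S, hs, ht, Or.inr (Or.inr ⟨rfl, rfl⟩)⟩

theorem stat_reach {w : List Sig} {p p' : Q} {i : ℕ} {s : Sym Sig}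
    (hs : (tape w)[i]? = some s) (h : Stat A s p p') :
    ReflTransGen (A.Step w) (p, i) (p', i) := by
  induction h with
  | refl => exact ReflTransGen.refl
  | tail _ ht ih => exact ih.tail (step_S hs ht)

/-! ### Traversals -/

theorem trav_R (u x v : List Sig) (p q : Q) (h : BR A x (some p) (some q)) :
    ReflTransGen (A.Step (u ++ x ++ v)) (p, u.length + 1) (q, u.length + x.length + 1) := by
  induction x generalizing u p with
  | nil =>
    rw [BR_nil, Mat.one_apply] at h
    cases h
    simpa using ReflTransGen.refl
  | cons c x ih =>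
    rw [BR_cons, Mat.mul_apply] at h
    obtain ⟨r, h1, h2⟩ := h
    cases r with
    | none => exact absurd ((BR_none A x _).1 h2) (by simp)
    | some r =>
      obtain ⟨p', hp1, hp2⟩ := h1
      have hw : u ++ c :: x ++ v = u ++ c :: (x ++ v) := by simp
      have hs : (tape (u ++ c :: x ++ v))[u.length + 1]? = some (Sym.letter c) := by
        rw [hw]; exact tape_mid _ _ _
      have h3 := stat_reach hs hp1
      have h4 : A.Step (u ++ c :: x ++ v) (p', u.length + 1) (r, u.length + 1 + 1) :=
        step_R hs hp2 (by rw [tape_length]; simp only [List.length_append, List.length_cons]; omega)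
      have h5 := ih (u ++ [c]) r h2
      rw [show u ++ [c] ++ x ++ v = u ++ c :: x ++ v by simp] at h5
      have e1 : (u ++ [c]).length + 1 = u.length + 1 + 1 := by simp
      have e2 : (u ++ [c]).length + x.length + 1 = u.length + (c :: x).length + 1 := by
        simp only [List.length_append, List.length_cons, List.length_nil]; omega
      rw [e1, e2] at h5
      exact (h3.tail h4).trans h5

theorem trav_R_acc (u x v : List Sig) (p : Q) (h : BR A x (some p) none) :
    ∃ q i, ReflTransGen (A.Step (u ++ x ++ v)) (p, u.length + 1) (q, i) ∧ A.acc q := by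
  induction x generalizing u p with
  | nil =>
    rw [BR_nil, Mat.one_apply] at h
    cases h
  | cons c x ih =>
    rw [BR_cons, Mat.mul_apply] at h
    obtain ⟨r, h1, h2⟩ := h
    have hw : u ++ c :: x ++ v = u ++ c :: (x ++ v) := by simp
    have hs : (tape (u ++ c :: x ++ v))[u.length + 1]? = some (Sym.letter c) := by
      rw [hw]; exact tape_mid _ _ _
    cases r with
    | none =>
      obtain ⟨p', hp1, hp2⟩ := h1
      exact ⟨p', _, stat_reach hs hp1, hp2⟩
    | some r =>
      obtain ⟨p', hp1, hp2⟩ := h1
      have h3 := stat_reach hs hp1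
      have h4 : A.Step (u ++ c :: x ++ v) (p', u.length + 1) (r, u.length + 1 + 1) :=
        step_R hs hp2 (by rw [tape_length]; simp only [List.length_append, List.length_cons]; omega)
      obtain ⟨q, i, h5, h6⟩ := ih (u ++ [c]) r h2
      rw [show u ++ [c] ++ x ++ v = u ++ c :: x ++ v by simp] at h5
      have e1 : (u ++ [c]).length + 1 = u.length + 1 + 1 := by simp
      rw [e1] at h5
      exact ⟨q, i, (h3.tail h4).trans h5, h6⟩

theorem trav_L (u x v : List Sig) (p q : Q) (h : BL A x (some p) (some q)) :
    ReflTransGen (A.Step (u ++ x ++ v)) (p, u.length + x.length) (q, u.length) := by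
  induction x using List.reverseRecOn generalizing v p with
  | nil =>
    rw [BL_nil, Mat.one_apply] at h
    cases h
    simpa using ReflTransGen.refl
  | append_singleton x c ih =>
    rw [BL_append, BL_singleton, Mat.mul_apply] at h
    obtain ⟨r, h1, h2⟩ := h
    cases r with
    | none => exact absurd ((BL_none A x _).1 h2) (by simp)
    | some r =>
      obtain ⟨p', hp1, hp2⟩ := h1
      have hw : u ++ (x ++ [c]) ++ v = (u ++ x) ++ c :: v := by simp
      have hs : (tape (u ++ (x ++ [c]) ++ v))[u.length + x.length + 1]? = some (Sym.letter c) := by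
        rw [hw]
        have := tape_mid (u ++ x) v c
        simpa using this
      have h3 := stat_reach hs hp1
      have h4 : A.Step (u ++ (x ++ [c]) ++ v) (p', u.length + x.length + 1)
          (r, u.length + x.length) := step_L hs hp2
      have h5 := ih (c :: v) r h2
      rw [show u ++ x ++ c :: v = u ++ (x ++ [c]) ++ v by simp] at h5
      have hlen : u.length + (x ++ [c]).length = u.length + x.length + 1 := by simp; omega
      rw [hlen]
      exact (h3.tail h4).trans h5

theorem trav_L_acc (u x v : List Sig) (p : Q) (h : BL A x (some p) none) :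
    ∃ q i, ReflTransGen (A.Step (u ++ x ++ v)) (p, u.length + x.length) (q, i) ∧ A.acc q := by
  induction x using List.reverseRecOn generalizing v p with
  | nil =>
    rw [BL_nil, Mat.one_apply] at h
    cases h
  | append_singleton x c ih =>
    rw [BL_append, BL_singleton, Mat.mul_apply] at h
    obtain ⟨r, h1, h2⟩ := h
    have hw : u ++ (x ++ [c]) ++ v = (u ++ x) ++ c :: v := by simp
    have hs : (tape (u ++ (x ++ [c]) ++ v))[u.length + x.length + 1]? = some (Sym.letter c) := by
      rw [hw]
      have := tape_mid (u ++ x) v c
      simpa using this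
    have hlen : u.length + (x ++ [c]).length = u.length + x.length + 1 := by simp; omega
    rw [hlen]
    cases r with
    | none =>
      obtain ⟨p', hp1, hp2⟩ := h1
      exact ⟨p', _, stat_reach hs hp1, hp2⟩
    | some r =>
      obtain ⟨p', hp1, hp2⟩ := h1
      have h3 := stat_reach hs hp1
      have h4 : A.Step (u ++ (x ++ [c]) ++ v) (p', u.length + x.length + 1)
          (r, u.length + x.length) := step_L hs hp2
      obtain ⟨q, i, h5, h6⟩ := ih (c :: v) r h2
      rw [show u ++ x ++ c :: v = u ++ (x ++ [c]) ++ v by simp] at h5
      exact ⟨q, i, (h3.tail h4).trans h5, h6⟩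

end Vale.Agent.Lib.P343
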