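import Mathlib

/-!
Two-way nondeterministic finite automata, their accepting runs, and the count of
direction reversals made at input cells.
-/

namespace Vale.Agent.Lib.P343

/-- Tape symbols: the left endmarker, the right endmarker, and the input letters. -/
inductive Sym (Sig : Type) where
  | left : Sym Sig
  | right : Sym Sig
  | letter : Sig → Sym Sig

/-- Head moves: one cell left, one cell right, or stay. -/
inductive Move where
  | L : Move
  | R : Move
  | S : Move

/-- A two-way nondeterministic finite automaton with state type `Q` over the alphabet `Sig`:
one initial state, a set of accepting states, and a transition relation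
`trans q s q' m` (in state `q` scanning `s`, may go to state `q'` and move the head by `m`). -/
structure TwoNFA (Sig Q : Type) where
  init : Q
  acc : Q → Prop
  trans : Q → Sym Sig → Q → Move → Prop

/-- The tape contents on input `w`: left endmarker, `w`, right endmarker. -/
def tape {Sig : Type} (w : List Sig) : List (Sym Sig) :=
  Sym.left :: (w.map Sym.letter ++ [Sym.right])

namespace TwoNFA

variable {Sig Q : Type}

/-- One computation step on input `w` between configurations (state, head position).
Position `0` is the left endmarker, positions `1, ..., w.length` are the input cells and
position `w.length + 1` is the right endmarker; the head never leaves the tape. -/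
def Step (A : TwoNFA Sig Q) (w : List Sig) (c c' : Q × ℕ) : Prop :=
  c'.2 < (tape w).length ∧ ∃ s m, (tape w)[c.2]? = some s ∧ A.trans c.1 s c'.1 m ∧
    ((m = Move.L ∧ c'.2 + 1 = c.2) ∨ (m = Move.R ∧ c'.2 = c.2 + 1) ∨
      (m = Move.S ∧ c'.2 = c.2))

/-- A finite computation on input `w`, given as the list of its configurations: it starts in the
initial state on the left endmarker and ends in an accepting state. -/
def IsAcceptingRun (A : TwoNFA Sig Q) (w : List Sig) (ρ : List (Q × ℕ)) : Prop :=
  ρ.head? = some (A.init, 0) ∧ ρ.IsChain (A.Step w) ∧ ∃ c ∈ ρ.getLast?, A.acc c.1

/-- `w` is accepted if some finite computation reaches an accepting state. -/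
def Accepts (A : TwoNFA Sig Q) (w : List Sig) : Prop :=
  ∃ ρ, A.IsAcceptingRun w ρ

/-- A one-way automaton never moves left. -/
def OneWay (A : TwoNFA Sig Q) : Prop :=
  ∀ q s q', ¬ A.trans q s q' Move.L

end TwoNFA

/-- The cells at which a sequence of head positions changes direction, in order of occurrence and
with multiplicity. Stationary steps are ignored. The first argument is the direction of the last
non-stationary step (`some true` for right, `some false` for left, `none` if there was none). -/
def turnCellsAux : Option Bool → List ℕ → List ℕ
  | _, [] => []
  | _, [_] => []
  | d, i :: i' :: t =>
    if i' = i then turnCellsAux d (i' :: t)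
    else if d = some (!decide (i < i')) then i :: turnCellsAux (some (decide (i < i'))) (i' :: t)
    else turnCellsAux (some (decide (i < i'))) (i' :: t)

/-- The number of direction reversals of the run `ρ` on input `w` that take place at input cells:
reversals on the endmarkers are not counted, so a sweeping run has none. -/
def internalReversals {Sig Q : Type} (w : List Sig) (ρ : List (Q × ℕ)) : ℕ :=
  ((turnCellsAux none (ρ.map Prod.snd)).filter (fun c => 1 ≤ c ∧ c ≤ w.length)).length

end Vale.Agent.Lib.P343
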