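import Vale.Agent.Lib.P343.Automaton

/-!
The lower bound on complementing the language of `NN h` with few internal reversals.
-/

namespace Vale.Agent.Lib.P343

open Relation

variable {h : ℕ} {Q : Type}

/-- The two letter word of a pair. -/
def pr (a b : Finset (Fin h)) : List (Letter h) := [Letter.A a, Letter.B b]

theorem isP_pr {a b : Finset (Fin h)} (hab : (a ∩ b).Nonempty) : IsP (pr a b) :=
  IsP.cons a b [] hab IsP.nil

theorem not_isP_pr_compl (a : Finset (Fin h)) (z : List (Letter h)) : ¬ IsP (pr a aᶜ ++ z) := by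
  intro hP
  cases hP with
  | cons _ _ _ hab _ =>
    obtain ⟨v, hv⟩ := hab
    simp at hv

theorem exists_free_group (T : List ℕ) (L M : ℕ)
    (hT : (T.filter (fun c => 1 ≤ c ∧ c ≤ M * (L + 1))).length < M) :
    ∃ j, j < M ∧ ∀ x ∈ T, ¬ (j * (L + 1) + 1 ≤ x ∧ x ≤ j * (L + 1) + L) := by
  classical
  by_contra hcon
  push Not at hcon
  set T' := T.filter (fun c => 1 ≤ c ∧ c ≤ M * (L + 1)) with hT'
  have hsub : Finset.range M ⊆ (T'.map (fun x => (x - 1) / (L + 1))).toFinset := by
    intro j hj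
    rw [Finset.mem_range] at hj
    obtain ⟨x, hx, h1, h2⟩ := hcon j hj
    rw [List.mem_toFinset, List.mem_map]
    refine ⟨x, ?_, ?_⟩
    · rw [hT', List.mem_filter]
      refine ⟨hx, ?_⟩
      have h3 : (j + 1) * (L + 1) ≤ M * (L + 1) := Nat.mul_le_mul_right _ hj
      have h4 : (j + 1) * (L + 1) = j * (L + 1) + L + 1 := by ring
      simp only [decide_eq_true_eq]
      omega
    · have h5 : x - 1 = (x - 1 - j * (L + 1)) + j * (L + 1) := by omega
      rw [h5, Nat.add_mul_div_right _ _ (by omega), Nat.div_eq_of_lt (by omega)]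
      simp
  have h6 := Finset.card_le_card hsub
  rw [Finset.card_range] at h6
  have h7 := List.toFinset_card_le (T'.map (fun x => (x - 1) / (L + 1)))
  rw [List.length_map] at h7
  omega

section Run

variable (A : TwoNFA (Letter h) Q)

/-- A run with fewer than `M` internal reversals leaves one of the `M` blocks free of turns. -/
theorem spliced_accepts {W W' : List (Letter h)} (hW : W ≠ [])
    (hR : ∀ p z, BR A W (some p) z → BR A W' (some p) z)
    (hL : ∀ p z, BL A W (some p) z → BL A W' (some p) z)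
    (M : ℕ) (ρ : List (Q × ℕ)) (hρ : A.IsAcceptingRun (rep (W ++ [Letter.sep]) M) ρ)
    (hrev : internalReversals (rep (W ++ [Letter.sep]) M) ρ < M) :
    ∃ j k, A.Accepts (rep (W ++ [Letter.sep]) j ++ W' ++ Letter.sep :: rep (W ++ [Letter.sep]) k) := by
  have hlenM : (rep (W ++ [Letter.sep]) M).length = M * (W.length + 1) := by
    rw [rep_length]; simp
  rw [internalReversals, hlenM] at hrev
  obtain ⟨j, hj, hfree⟩ := exists_free_group _ W.length M hrev
  obtain ⟨k, rfl⟩ : ∃ k, M = j + (k + 1) := ⟨M - j - 1, by omega⟩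
  refine ⟨j, k, ?_⟩
  have hw : rep (W ++ [Letter.sep]) (j + (k + 1)) =
      rep (W ++ [Letter.sep]) j ++ W ++ Letter.sep :: rep (W ++ [Letter.sep]) k := by
    rw [rep_add, rep_succ]; simp
  rw [hw] at hρ
  refine splice hW hR hL ρ hρ ?_
  intro x hx hx2
  refine hfree x hx ?_
  have hu : (rep (W ++ [Letter.sep]) j).length = j * (W.length + 1) := by
    rw [rep_length]; simp
  rw [hu] at hx2
  exact hx2

/-- Every accepting run on a repetition of a group which is not a `P` sequence, but whose crossing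
relations are below those of a `P` sequence, makes many internal reversals. -/
theorem many_reversals (hA : ∀ w, A.Accepts w ↔ ¬ (NN h).Accepts w)
    {W y : List (Letter h)} (hW : W ≠ []) (hy : IsP y)
    (hR : ∀ p z, BR A W (some p) z → BR A y (some p) z)
    (hL : ∀ p z, BL A W (some p) z → BL A y (some p) z)
    (M : ℕ) (ρ : List (Q × ℕ)) (hρ : A.IsAcceptingRun (rep (W ++ [Letter.sep]) M) ρ) :
    M ≤ internalReversals (rep (W ++ [Letter.sep]) M) ρ := by
  by_contra hlt
  obtain ⟨j, k, hacc⟩ := spliced_accepts A hW hR hL M ρ hρ (not_le.mp hlt)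
  exact (hA _).1 hacc (NN_accepts hy _ j)

theorem Beh_rep (x : List (Letter h)) (n : ℕ) : Beh A (rep x n) = (Beh A x) ^ n := by
  induction n with
  | zero => rw [rep_zero, Beh_nil, pow_zero]
  | succ n ih => rw [rep_succ, Beh_append, ih, pow_succ']

end Run

section Groups

variable (A : TwoNFA (Letter h) Q) (e : BM Q)

/-- Factor of a right crossing, left part. -/
def XR (c : Finset (Fin h)) : Mat (Option Q) := e.1 * Tc A Move.R (Sym.letter (Letter.A c))

/-- Factor of a right crossing, right part. -/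
def YR (c : Finset (Fin h)) : Mat (Option Q) := Tc A Move.R (Sym.letter (Letter.B cᶜ)) * e.1

/-- Factor of a left crossing, left part. -/
def XL (c : Finset (Fin h)) : Mat (Option Q) := e.2.unop * Tc A Move.L (Sym.letter (Letter.B cᶜ))

/-- Factor of a left crossing, right part. -/
def YL (c : Finset (Fin h)) : Mat (Option Q) := Tc A Move.L (Sym.letter (Letter.A c)) * e.2.unop

theorem sigma_fst (a c : Finset (Fin h)) :
    (e * Beh A (pr a cᶜ) * e).1 = XR A e a * YR A e c := by
  have h1 : (Beh A (pr a cᶜ)).1 =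
      Tc A Move.R (Sym.letter (Letter.A a)) * Tc A Move.R (Sym.letter (Letter.B cᶜ)) := by
    change BR A _ = _
    rw [pr, BR_cons, BR_singleton]
  simp only [Prod.fst_mul, h1, XR, YR, mul_assoc]

theorem sigma_snd (a c : Finset (Fin h)) :
    (e * Beh A (pr a cᶜ) * e).2.unop = XL A e c * YL A e a := by
  have h1 : (Beh A (pr a cᶜ)).2.unop =
      Tc A Move.L (Sym.letter (Letter.B cᶜ)) * Tc A Move.L (Sym.letter (Letter.A a)) := by
    change BL A _ = _
    rw [pr, BL_cons, BL_singleton]
  simp only [Prod.snd_mul, MulOpposite.unop_mul, h1, XL, YL, mul_assoc]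

/-- Right-crossing components of the group. -/
def GpR (S : Set (BM Q)) : Set (Mat (Option Q)) := {τ | ∃ x ∈ S, τ = (e * x * e).1}

/-- Left-crossing components of the group. -/
def GpL (S : Set (BM Q)) : Set (Mat (Option Q)) := {τ | ∃ x ∈ S, τ = (e * x * e).2.unop}

/-- A witness that two entries of the crossing relation of the pair of `a` are not in a common
element of the group. -/
def Wit (S : Set (BM Q)) (a : Finset (Fin h))
    (t : Bool × Option Q × Option Q × Option Q × Option Q × Option Q × Option Q) : Prop :=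
  match t with
  | (d, α, r, β, α', r', β') =>
    if d then
      XR A e a α r ∧ YR A e a r β ∧ XR A e a α' r' ∧ YR A e a r' β' ∧
        ∀ τ ∈ GpR e S, ¬ (τ α β ∧ τ α' β')
    else
      XL A e a α r ∧ YL A e a r β ∧ XL A e a α' r' ∧ YL A e a r' β' ∧
        ∀ τ ∈ GpL e S, ¬ (τ α β ∧ τ α' β')

theorem wit_inj (S : Set (BM Q)) {a c : Finset (Fin h)} (hmem : Beh A (pr a cᶜ) ∈ S)
    {t : Bool × Option Q × Option Q × Option Q × Option Q × Option Q × Option Q}
    (h1 : Wit A e S a t) (h2 : Wit A e S c t) : False := by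
  obtain ⟨d, α, r, β, α', r', β'⟩ := t
  cases d with
  | true =>
    simp only [Wit, if_true] at h1 h2
    obtain ⟨h11, _, h13, _, h15⟩ := h1
    obtain ⟨_, h22, _, h24, _⟩ := h2
    refine h15 _ ⟨_, hmem, rfl⟩ ?_
    rw [sigma_fst]
    exact ⟨Mat.mul_of h11 h22, Mat.mul_of h13 h24⟩
  | false =>
    simp only [Wit, Bool.false_eq_true, if_false] at h1 h2
    obtain ⟨_, h12, _, h14, h15⟩ := h1
    obtain ⟨h21, _, h23, _, _⟩ := h2
    refine h15 _ ⟨_, hmem, rfl⟩ ?_
    rw [sigma_snd]
    exact ⟨Mat.mul_of h21 h12, Mat.mul_of h23 h14⟩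

end Groups

section Main

variable [Fintype Q] (A : TwoNFA (Letter h) Q)

instance instFiniteBM : Finite (BM Q) := by
  have h1 : Finite (Mat (Option Q)) := inferInstance
  have h2 : Finite (Mat (Option Q))ᵐᵒᵖ := Finite.of_equiv _ MulOpposite.opEquiv
  unfold BM
  exact Finite.instProd

theorem main_bound (hA : ∀ w, A.Accepts w ↔ ¬ (NN h).Accepts w)
    (hc : 2 * (Fintype.card Q + 1) ^ 6 < h.choose (h / 2)) :
    ∃ C, 0 < C ∧ ∀ n, ∃ w : List (Letter h), n ≤ w.length ∧ A.Accepts w ∧
      ∀ ρ, A.IsAcceptingRun w ρ → w.length ≤ C * internalReversals w ρ := by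
  classical
  let S : Set (BM Q) := {m | ∃ y, IsP y ∧ Beh A y = m}
  have hSmul : ∀ x ∈ S, ∀ z ∈ S, x * z ∈ S := by
    rintro _ ⟨x, hx, rfl⟩ _ ⟨z, hz, rfl⟩
    exact ⟨x ++ z, hx.append hz, Beh_append A x z⟩
  have hSne : S.Nonempty := ⟨_, [], IsP.nil, rfl⟩
  obtain ⟨e, heS, he, hK⟩ := lemmaK S hSne hSmul
  obtain ⟨y, hy, hye⟩ := heS
  -- elementary identities
  have hee : ∀ x : BM Q, e * (e * x * e) = e * x * e := by
    intro x; rw [← mul_assoc, ← mul_assoc, he]
  have hee' : ∀ x : BM Q, (e * x * e) * e = e * x * e := by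
    intro x; rw [mul_assoc, he]
  have hprod : ∀ x z : BM Q, (e * x * e) * (e * z * e) = e * (x * e * z) * e := by
    intro x z
    calc (e * x * e) * (e * z * e) = e * x * (e * e) * z * e := by simp only [mul_assoc]
      _ = e * (x * e * z) * e := by rw [he]; simp only [mul_assoc]
  have heS' : e ∈ S := ⟨y, hy, hye⟩
  have heRR : e.1 * e.1 = e.1 := by rw [← Prod.fst_mul, he]
  have heLL : e.2.unop * e.2.unop = e.2.unop := by
    rw [← MulOpposite.unop_mul, ← Prod.snd_mul, he]
  -- the group conditions, right component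
  have hRmul : ∀ a ∈ GpR e S, ∀ b ∈ GpR e S, a * b ∈ GpR e S := by
    rintro _ ⟨x, hx, rfl⟩ _ ⟨z, hz, rfl⟩
    refine ⟨x * e * z, hSmul _ (hSmul _ hx _ heS') _ hz, ?_⟩
    rw [← Prod.fst_mul, hprod x z]
  have hRid : ∀ a ∈ GpR e S, e.1 * a = a ∧ a * e.1 = a := by
    rintro _ ⟨x, _, rfl⟩
    constructor
    · rw [← Prod.fst_mul, hee]
    · rw [← Prod.fst_mul, hee']
  have hRinv : ∀ a ∈ GpR e S, ∃ b ∈ GpR e S, a * b = e.1 ∧ b * a = e.1 := by
    rintro _ ⟨x, hx, rfl⟩
    obtain ⟨x', hx', h1, h2⟩ := hK x hx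
    refine ⟨_, ⟨x', hx', rfl⟩, ?_, ?_⟩
    · rw [← Prod.fst_mul, h1]
    · rw [← Prod.fst_mul, h2]
  -- the group conditions, left component
  have hLmul : ∀ a ∈ GpL e S, ∀ b ∈ GpL e S, a * b ∈ GpL e S := by
    rintro _ ⟨x, hx, rfl⟩ _ ⟨z, hz, rfl⟩
    refine ⟨z * e * x, hSmul _ (hSmul _ hz _ heS') _ hx, ?_⟩
    rw [← MulOpposite.unop_mul, ← Prod.snd_mul, hprod z x]
  have hLid : ∀ a ∈ GpL e S, e.2.unop * a = a ∧ a * e.2.unop = a := by
    rintro _ ⟨x, _, rfl⟩
    constructor
    · rw [← MulOpposite.unop_mul, ← Prod.snd_mul, hee']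
    · rw [← MulOpposite.unop_mul, ← Prod.snd_mul, hee]
  have hLinv : ∀ a ∈ GpL e S, ∃ b ∈ GpL e S, a * b = e.2.unop ∧ b * a = e.2.unop := by
    rintro _ ⟨x, hx, rfl⟩
    obtain ⟨x', hx', h1, h2⟩ := hK x hx
    refine ⟨_, ⟨x', hx', rfl⟩, ?_, ?_⟩
    · rw [← MulOpposite.unop_mul, ← Prod.snd_mul, h2]
    · rw [← MulOpposite.unop_mul, ← Prod.snd_mul, h1]
  -- the words
  let N : ℕ := Nat.factorial (Fintype.card (Option Q))
  have hN1 : Fintype.card (Option Q) ≤ N := Nat.self_le_factorial _
  have hN2 : ∀ l, 1 ≤ l → l ≤ Fintype.card (Option Q) → l ∣ N :=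
    fun l hl hl' => Nat.dvd_factorial (by omega) hl'
  obtain ⟨k, hNk⟩ : ∃ k, N = k + 1 := ⟨N - 1, by have := Nat.factorial_pos (Fintype.card (Option Q)); omega⟩
  let g : Finset (Fin h) → BM Q := fun a => e * Beh A (pr a aᶜ) * e
  let W : Finset (Fin h) → List (Letter h) := fun a => rep (y ++ pr a aᶜ ++ y) N
  have hBehW : ∀ a, Beh A (W a) = (g a) ^ N := by
    intro a
    simp only [W, g]
    rw [Beh_rep, Beh_append, Beh_append, hye]
  have hWsplit : ∀ a, W a = y ++ (pr a aᶜ ++ (y ++ rep (y ++ pr a aᶜ ++ y) k)) := by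
    intro a
    simp only [W]
    rw [hNk, rep_succ]
    simp
  have hWne : ∀ a, W a ≠ [] := by
    intro a
    rw [hWsplit]
    simp [pr]
  have hWnP : ∀ a, ¬ IsP (W a) := by
    intro a hP
    rw [hWsplit] at hP
    exact not_isP_pr_compl a _ (hy.of_append hP)
  have hWsep : ∀ a, Letter.sep ∉ W a := by
    intro a
    apply rep_noSep
    simp [pr, hy.noSep]
  -- the choice of the set
  have hexists : ∃ a ∈ Finset.powersetCard (h / 2) (Finset.univ : Finset (Fin h)),
      ¬ ∃ t, Wit A e S a t := by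
    by_contra hno
    push Not at hno
    choose! f hf using hno
    have hcard : (Finset.powersetCard (h / 2) (Finset.univ : Finset (Fin h))).card ≤
        (Finset.univ : Finset (Bool × Option Q × Option Q × Option Q × Option Q × Option Q ×
          Option Q)).card := by
      refine Finset.card_le_card_of_injOn f (fun _ _ => Finset.mem_coe.2 (Finset.mem_univ _)) ?_
      intro a ha c hc hfac
      by_contra hne
      rw [Finset.mem_coe, Finset.mem_powersetCard] at ha hc
      have hsub : ¬ a ⊆ c := by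
        intro hs
        exact hne (Finset.eq_of_subset_of_card_le hs (by rw [ha.2, hc.2]))
      obtain ⟨v, hva, hvc⟩ := Finset.not_subset.1 hsub
      have hmem : Beh A (pr a cᶜ) ∈ S :=
        ⟨_, isP_pr ⟨v, by simp [hva, hvc]⟩, rfl⟩
      have h1 := hf a (Finset.mem_powersetCard.2 ha)
      have h2 := hf c (Finset.mem_powersetCard.2 hc)
      rw [← hfac] at h2
      exact wit_inj A e S hmem h1 h2
    rw [Finset.card_powersetCard, Finset.card_univ, Fintype.card_fin, Finset.card_univ] at hcard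
    have hT : Fintype.card (Bool × Option Q × Option Q × Option Q × Option Q × Option Q ×
        Option Q) = 2 * (Fintype.card Q + 1) ^ 6 := by
      simp only [Fintype.card_prod, Fintype.card_bool, Fintype.card_option]
      ring
    omega
  obtain ⟨a, _, hawit⟩ := hexists
  -- the two pair conditions
  have hpairR : ∀ x y' x' y'', (g a).1 x y' → (g a).1 x' y'' →
      ∃ τ ∈ GpR e S, τ x y' ∧ τ x' y'' := by
    intro x y' x' y'' h1 h2
    by_contra hno
    push Not at hno
    simp only [g] at h1 h2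
    rw [sigma_fst] at h1 h2
    obtain ⟨r, h11, h12⟩ := h1
    obtain ⟨r', h21, h22⟩ := h2
    refine hawit ⟨(true, x, r, y', x', r', y''), ?_⟩
    simp only [Wit, if_true]
    exact ⟨h11, h12, h21, h22, fun τ hτ h => hno τ hτ h.1 h.2⟩
  have hpairL : ∀ x y' x' y'', (g a).2.unop x y' → (g a).2.unop x' y'' →
      ∃ τ ∈ GpL e S, τ x y' ∧ τ x' y'' := by
    intro x y' x' y'' h1 h2
    by_contra hno
    push Not at hno
    simp only [g] at h1 h2
    rw [sigma_snd] at h1 h2
    obtain ⟨r, h11, h12⟩ := h1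
    obtain ⟨r', h21, h22⟩ := h2
    refine hawit ⟨(false, x, r, y', x', r', y''), ?_⟩
    simp only [Wit, Bool.false_eq_true, if_false]
    exact ⟨h11, h12, h21, h22, fun τ hτ h => hno τ hτ h.1 h.2⟩
  have hgR1 : e.1 * (g a).1 = (g a).1 := by
    rw [← Prod.fst_mul]; simp only [g]; rw [hee]
  have hgR2 : (g a).1 * e.1 = (g a).1 := by
    rw [← Prod.fst_mul]; simp only [g]; rw [hee']
  have hgL1 : e.2.unop * (g a).2.unop = (g a).2.unop := by
    rw [← MulOpposite.unop_mul, ← Prod.snd_mul]; simp only [g]; rw [hee']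
  have hgL2 : (g a).2.unop * e.2.unop = (g a).2.unop := by
    rw [← MulOpposite.unop_mul, ← Prod.snd_mul]; simp only [g]; rw [hee]
  have hkeyR := key_lemma e.1 (g a).1 (GpR e S) N heRR hRmul hRid hRinv hgR1 hgR2 hpairR hN1 hN2
  have hkeyL := key_lemma e.2.unop (g a).2.unop (GpL e S) N heLL hLmul hLid hLinv hgL1 hgL2 hpairL
    hN1 hN2
  have hBRW : BR A (W a) = ((g a).1) ^ N := by
    rw [BR, hBehW, Prod.pow_fst]
  have hBLW : BL A (W a) = ((g a).2.unop) ^ N := by
    rw [BL, hBehW, Prod.pow_snd, MulOpposite.unop_pow]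
  have hBRy : BR A y = e.1 := by rw [BR, hye]
  have hBLy : BL A y = e.2.unop := by rw [BL, hye]
  have hR : ∀ p z, BR A (W a) (some p) z → BR A y (some p) z := by
    intro p z hz
    rw [hBRW] at hz
    rw [hBRy]
    exact hkeyR _ _ hz
  have hL : ∀ p z, BL A (W a) (some p) z → BL A y (some p) z := by
    intro p z hz
    rw [hBLW] at hz
    rw [hBLy]
    exact hkeyL _ _ hz
  -- conclusion
  refine ⟨(W a).length + 1, by omega, fun n => ⟨rep (W a ++ [Letter.sep]) n, ?_, ?_, ?_⟩⟩
  · rw [rep_length]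
    simp only [List.length_append, List.length_cons, List.length_nil]
    exact Nat.le_mul_of_pos_right n (by omega)
  · exact (hA _).2 (NN_rejects (hWsep a) (hWnP a) n)
  · intro ρ hρ
    have hm := many_reversals A hA (hWne a) hy hR hL n ρ hρ
    have hlen : (rep (W a ++ [Letter.sep]) n).length = n * ((W a).length + 1) := by
      rw [rep_length]; simp
    rw [hlen, Nat.mul_comm]
    exact Nat.mul_le_mul_left _ hm

end Main

end Vale.Agent.Lib.P343
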