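import Mathlib

/-!
A finite semigroup fact: some idempotent `e` of a finite subsemigroup `S` is such that `e S e` is a
group with identity `e` (an idempotent of the minimal ideal).
-/

namespace Vale.Agent.Lib.P343

theorem exists_idem_pow {M : Type} [Monoid M] [Finite M] (x : M) :
    ∃ n, 1 ≤ n ∧ x ^ n * x ^ n = x ^ n := by
  obtain ⟨i, j, hij, hpow⟩ := Finite.exists_ne_map_eq_of_infinite (fun n : ℕ => x ^ n)
  wlog hlt : i < j generalizing i j
  · exact this j i hij.symm hpow.symm (lt_of_le_of_ne (not_lt.mp hlt) hij.symm)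
  obtain ⟨p, rfl⟩ : ∃ p, j = i + p := ⟨j - i, by omega⟩
  have hp : 1 ≤ p := by omega
  have h1 : ∀ m, i ≤ m → x ^ (m + p) = x ^ m := by
    intro m hm
    obtain ⟨k, rfl⟩ : ∃ k, m = i + k := ⟨m - i, by omega⟩
    calc x ^ (i + k + p) = x ^ (i + p) * x ^ k := by rw [← pow_add]; congr 1; omega
      _ = x ^ i * x ^ k := by rw [← hpow]
      _ = x ^ (i + k) := by rw [pow_add]
  have h2 : ∀ m, i ≤ m → ∀ k, x ^ (m + k * p) = x ^ m := by
    intro m hm k
    induction k with
    | zero => simp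
    | succ k ih =>
      have : m + (k + 1) * p = (m + k * p) + p := by ring
      rw [this, h1 _ (by omega), ih]
  refine ⟨(i + 1) * p, by nlinarith, ?_⟩
  rw [← pow_add]
  exact h2 _ (by nlinarith) (i + 1)

/-- In a finite monoid, inside the local monoid at an idempotent, a left inverse is an inverse. -/
theorem right_inv_of_left_inv {M : Type} [Monoid M] [Finite M] {e a l : M}
    (hea : e * a = a) (hae : a * e = a) (hle : l * e = l) (hla : l * a = e) : a * l = e := by
  have hepow : ∀ k, 1 ≤ k → e * a ^ k = a ^ k := by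
    intro k hk
    obtain ⟨k, rfl⟩ : ∃ m, k = m + 1 := ⟨k - 1, by omega⟩
    rw [pow_succ', ← mul_assoc, hea]
  have hinv : ∀ k, 1 ≤ k → l ^ k * a ^ k = e := by
    intro k hk
    induction k with
    | zero => omega
    | succ k ih =>
      by_cases hk0 : k = 0
      · subst hk0; simpa using hla
      · have hk1 : 1 ≤ k := by omega
        calc l ^ (k + 1) * a ^ (k + 1) = l ^ k * (l * a) * a ^ k := by
              rw [pow_succ, pow_succ']; simp only [mul_assoc]
          _ = l ^ k * (e * a ^ k) := by rw [hla, mul_assoc]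
          _ = e := by rw [hepow k hk1, ih hk1]
  obtain ⟨n, hn, hidem⟩ := exists_idem_pow a
  have han : a ^ n = e := by
    calc a ^ n = e * a ^ n := (hepow n hn).symm
      _ = l ^ n * a ^ n * a ^ n := by rw [hinv n hn]
      _ = l ^ n * (a ^ n * a ^ n) := by rw [mul_assoc]
      _ = l ^ n * a ^ n := by rw [hidem]
      _ = e := hinv n hn
  obtain ⟨t, rfl⟩ : ∃ t, n = t + 1 := ⟨n - 1, by omega⟩
  have hat : a * a ^ t = e := by rw [← pow_succ', han]
  have hl : l = e * a ^ t := by
    calc l = l * e := hle.symm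
      _ = l * (a * a ^ t) := by rw [hat]
      _ = (l * a) * a ^ t := by rw [mul_assoc]
      _ = e * a ^ t := by rw [hla]
  rw [hl, ← mul_assoc, hae, hat]

/-- Lemma K. -/
theorem lemmaK {M : Type} [Monoid M] [Finite M] (S : Set M) (hne : S.Nonempty)
    (hmul : ∀ x ∈ S, ∀ y ∈ S, x * y ∈ S) :
    ∃ e ∈ S, e * e = e ∧ ∀ x ∈ S, ∃ x' ∈ S,
      (e * x * e) * (e * x' * e) = e ∧ (e * x' * e) * (e * x * e) = e := by
  classical
  have hpow : ∀ x ∈ S, ∀ k, x ^ (k + 1) ∈ S := by
    intro x hx k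
    induction k with
    | zero => simpa using hx
    | succ k ih => rw [pow_succ]; exact hmul _ ih _ hx
  have hidem : ∀ x ∈ S, ∃ f ∈ S, ∃ n, 1 ≤ n ∧ f = x ^ n ∧ f * f = f := by
    intro x hx
    obtain ⟨n, hn, h⟩ := exists_idem_pow x
    obtain ⟨k, rfl⟩ : ∃ k, n = k + 1 := ⟨n - 1, by omega⟩
    exact ⟨_, hpow x hx k, _, hn, rfl, h⟩
  let Idem : Set M := {e | e ∈ S ∧ e * e = e}
  let I : M → Set M := fun x => {z | ∃ u ∈ S, ∃ v ∈ S, z = u * x * v}
  have hIdem : Idem.Nonempty := by
    obtain ⟨x, hx⟩ := hne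
    obtain ⟨f, hf, n, _, _, hff⟩ := hidem x hx
    exact ⟨f, hf, hff⟩
  obtain ⟨e, ⟨heS, he⟩, hmin⟩ :=
    Set.exists_min_image Idem (fun x => (I x).ncard) (Set.toFinite _) hIdem
  refine ⟨e, heS, he, ?_⟩
  intro x hx
  set b := e * x * e with hb
  have hbS : b ∈ S := hmul _ (hmul _ heS _ hx) _ heS
  have heb : e * b = b := by rw [hb, ← mul_assoc, ← mul_assoc, he]
  have hbe : b * e = b := by rw [hb, mul_assoc, he]
  obtain ⟨f, hfS, n, hn, hfb, hff⟩ := hidem b hbS
  obtain ⟨k, rfl⟩ : ∃ k, n = k + 1 := ⟨n - 1, by omega⟩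
  have hef : e * f = f := by rw [hfb, pow_succ', ← mul_assoc, heb]
  have hfe : f * e = f := by rw [hfb, pow_succ, mul_assoc, hbe]
  have hsub : I f ⊆ I e := by
    rintro z ⟨u, hu, v, hv, rfl⟩
    refine ⟨u * e, hmul _ hu _ heS, f * v, hmul _ hfS _ hv, ?_⟩
    calc u * f * v = u * (e * f) * v := by rw [hef]
      _ = u * (e * e * f) * v := by rw [he]
      _ = u * e * e * (f * v) := by simp only [mul_assoc]
  have heqI : I f = I e :=
    Set.eq_of_subset_of_ncard_le hsub (hmin f ⟨hfS, hff⟩) (Set.toFinite _)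
  have heI : e ∈ I e := ⟨e, heS, e, heS, by rw [he, he]⟩
  rw [← heqI] at heI
  obtain ⟨u, hu, v, hv, huv⟩ := heI
  set U := e * u * e with hU
  set V := e * v * e with hV
  have hUS : U ∈ S := hmul _ (hmul _ heS _ hu) _ heS
  have hVS : V ∈ S := hmul _ (hmul _ heS _ hv) _ heS
  have heV : e * V = V := by rw [hV, ← mul_assoc, ← mul_assoc, he]
  have hVe : V * e = V := by rw [hV, mul_assoc, he]
  have heU : e * U = U := by rw [hU, ← mul_assoc, ← mul_assoc, he]
  have hUe : U * e = U := by rw [hU, mul_assoc, he]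
  have hUf : U * f * V = e := by
    calc U * f * V = e * u * (e * (f * e)) * v * e := by simp only [hU, hV, mul_assoc]
      _ = e * (u * f * v) * e := by rw [hfe, hef]; simp only [mul_assoc]
      _ = e := by rw [← huv, he, he]
  have hPS : ∀ k, U * b ^ k ∈ S := by
    intro k
    induction k with
    | zero => simpa using hUS
    | succ k ih => rw [pow_succ, ← mul_assoc]; exact hmul _ ih _ hbS
  have hPe : ∀ k, U * b ^ k * e = U * b ^ k := by
    intro k
    induction k with
    | zero => simpa using hUe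
    | succ k ih =>
      calc U * b ^ (k + 1) * e = U * b ^ k * (b * e) := by rw [pow_succ]; simp only [mul_assoc]
        _ = U * b ^ (k + 1) := by rw [hbe, pow_succ]; simp only [mul_assoc]
  set P := U * b ^ k with hP
  have hPb : P * b = U * f := by rw [hP, hfb, pow_succ, mul_assoc]
  have hl1 : (P * b) * V = e := by rw [hPb, hUf]
  have hl2 : V * (P * b) = e :=
    right_inv_of_left_inv heV hVe (by rw [mul_assoc, hbe]) hl1
  have hl3 : (V * P) * b = e := by rw [mul_assoc, hl2]
  have hl4 : b * (V * P) = e :=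
    right_inv_of_left_inv heb hbe (by rw [mul_assoc, hPe k]) hl3
  have hx' : e * (V * P) * e = V * P := by
    rw [← mul_assoc, heV, mul_assoc, hPe k]
  exact ⟨V * P, hmul _ hVS _ (hPS k), by rw [hx']; exact hl4, by rw [hx']; exact hl3⟩

end Vale.Agent.Lib.P343
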