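import Vale.Agent.Lib.P343.Behaviour

/-!
The splice lemma.
-/

namespace Vale.Agent.Lib.P343

open Relation

variable {Sig Q : Type} (A : TwoNFA Sig Q)

/-- Reachability from the initial configuration. -/
def Reach (w : List Sig) (c : Q × ℕ) : Prop := ReflTransGen (A.Step w) (A.init, 0) c

variable {A}

theorem accepts_of_reach {w : List Sig} {c : Q × ℕ} (h : Reach A w c) (hc : A.acc c.1) :
    A.Accepts w := by
  obtain ⟨l, hl, hlast⟩ := List.exists_isChain_cons_of_relationReflTransGen h
  refine ⟨(A.init, 0) :: l, rfl, hl, c, ?_, hc⟩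
  rw [List.getLast?_eq_getLast_of_ne_nil (List.cons_ne_nil _ _), hlast]
  rfl

variable (A)

/-- The invariant of the splice simulation. -/
def SInv (u W W' v : List Sig) (d : Option Bool) (c : Q × ℕ) : Prop :=
  (c.2 ≤ u.length ∧ Reach A (u ++ W' ++ v) c) ∨
  (u.length + W.length < c.2 ∧
    Reach A (u ++ W' ++ v) (c.1, c.2 - W.length + W'.length)) ∨
  (∃ W₁ s W₂, W = W₁ ++ s :: W₂ ∧ c.2 = u.length + 1 + W₁.length ∧ d = some true ∧
    ∃ p p₁, Reach A (u ++ W' ++ v) (p, u.length + 1) ∧ BR A W₁ (some p) (some p₁) ∧
      Stat A (Sym.letter s) p₁ c.1) ∨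
  (∃ W₁ s W₂, W = W₁ ++ s :: W₂ ∧ c.2 = u.length + 1 + W₁.length ∧ d = some false ∧
    ∃ p p₁, Reach A (u ++ W' ++ v) (p, u.length + W'.length) ∧ BL A W₂ (some p) (some p₁) ∧
      Stat A (Sym.letter s) p₁ c.1)

variable {A}

theorem tape_inner (u W₁ W₂ v : List Sig) (s : Sig) :
    (tape (u ++ (W₁ ++ s :: W₂) ++ v))[u.length + 1 + W₁.length]? = some (Sym.letter s) := by
  have := tape_mid (u ++ W₁) (W₂ ++ v) s
  rw [show u ++ W₁ ++ s :: (W₂ ++ v) = u ++ (W₁ ++ s :: W₂) ++ v by simp,
    show (u ++ W₁).length + 1 = u.length + 1 + W₁.length by simp; omega] at this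
  exact this

theorem sinv_step {u W W' v : List Sig} (hW : W ≠ [])
    (hR : ∀ p z, BR A W (some p) z → BR A W' (some p) z)
    (hL : ∀ p z, BL A W (some p) z → BL A W' (some p) z)
    {d : Option Bool} {c c' : Q × ℕ} (h : SInv A u W W' v d c)
    (hs : A.Step (u ++ W ++ v) c c')
    (hturn : c'.2 ≠ c.2 → d = some (!decide (c.2 < c'.2)) →
      ¬ (u.length + 1 ≤ c.2 ∧ c.2 ≤ u.length + W.length)) :
    SInv A u W W' v (if c'.2 = c.2 then d else some (decide (c.2 < c'.2))) c' := by
  obtain ⟨q, i⟩ := c
  obtain ⟨q', i'⟩ := c'
  obtain ⟨hlt, s, m, hsym, htr, hmove⟩ := hs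
  simp only at hlt hsym htr hmove hturn ⊢
  have hlen : (tape (u ++ W' ++ v)).length = u.length + W'.length + v.length + 2 := by
    rw [tape_length]; simp only [List.length_append]
  have hlen0 : (tape (u ++ W ++ v)).length = u.length + W.length + v.length + 2 := by
    rw [tape_length]; simp only [List.length_append]
  rcases h with ⟨hi, hre⟩ | ⟨hi, hre⟩ | ⟨W₁, s₀, W₂, hWe, hi, hd, p, p₁, hre, hbeh, hst⟩ |
    ⟨W₁, s₀, W₂, hWe, hi, hd, p, p₁, hre, hbeh, hst⟩
  · -- left of the block
    simp only at hi hre
    have hsym' : (tape (u ++ W' ++ v))[i]? = some s := by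
      rw [← tape_prefix u W W' v i hi]; exact hsym
    rcases hmove with ⟨rfl, hm⟩ | ⟨rfl, hm⟩ | ⟨rfl, hm⟩
    · -- left move
      subst hm
      have : ¬ i' = i' + 1 := by omega
      left
      exact ⟨by simp only; omega, ReflTransGen.tail hre (step_L hsym' htr)⟩
    · -- right move
      subst hm
      by_cases hia : i < u.length
      · left
        exact ⟨by simp only; omega, ReflTransGen.tail hre
          (step_R hsym' htr (by rw [hlen]; omega))⟩
      · have hia' : i = u.length := by omega
        subst hia'
        obtain ⟨s₀, W₂, rfl⟩ := List.exists_cons_of_ne_nil hW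
        have hne : ¬ u.length + 1 = u.length := by omega
        simp only [hne, if_false]
        right; right; left
        refine ⟨[], s₀, W₂, rfl, by simp, by simp, q', q', ?_, ?_, ReflTransGen.refl⟩
        · exact ReflTransGen.tail hre (step_R hsym' htr (by rw [hlen]; omega))
        · rw [BR_nil]; rfl
    · -- stationary
      subst hm
      simp only [if_true]
      left
      exact ⟨hi, ReflTransGen.tail hre (step_S hsym' htr)⟩
  · -- right of the block
    simp only at hi hre
    have hsym' : (tape (u ++ W' ++ v))[i - W.length + W'.length]? = some s := by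
      rw [← tape_suffix u W W' v i hi]; exact hsym
    rcases hmove with ⟨rfl, hm⟩ | ⟨rfl, hm⟩ | ⟨rfl, hm⟩
    · -- left move
      subst hm
      have hne : ¬ i' = i' + 1 := by omega
      have hnlt : ¬ i' + 1 < i' := by omega
      simp only [hne, hnlt, if_false, decide_false]
      by_cases hia : u.length + W.length < i'
      · right; left
        refine ⟨hia, ?_⟩
        have e1 : i' + 1 - W.length + W'.length = (i' - W.length + W'.length) + 1 := by omega
        rw [e1] at hre hsym'
        exact ReflTransGen.tail hre (step_L hsym' htr)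
      · have hia' : i' = u.length + W.length := by omega
        subst hia'
        obtain ⟨W₁, s₀, rfl⟩ : ∃ W₁ s₀, W = W₁ ++ [s₀] :=
          ⟨W.dropLast, W.getLast hW, (List.dropLast_append_getLast hW).symm⟩
        right; right; right
        refine ⟨W₁, s₀, [], rfl, by simp; omega, rfl, q', q', ?_, ?_, ReflTransGen.refl⟩
        · have e1 : u.length + (W₁ ++ [s₀]).length + 1 - (W₁ ++ [s₀]).length + W'.length =
              (u.length + W'.length) + 1 := by omega
          rw [e1] at hre hsym'
          exact ReflTransGen.tail hre (step_L hsym' htr)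
        · rw [BL_nil]; rfl
    · -- right move
      subst hm
      have hne : ¬ i + 1 = i := by omega
      simp only [hne, if_false]
      right; left
      refine ⟨by omega, ?_⟩
      have e1 : i + 1 - W.length + W'.length = (i - W.length + W'.length) + 1 := by omega
      rw [e1]
      exact ReflTransGen.tail hre (step_R hsym' htr (by rw [hlen]; rw [hlen0] at hlt; omega))
    · -- stationary
      subst hm
      simp only [if_true]
      right; left
      exact ⟨hi, ReflTransGen.tail hre (step_S hsym' htr)⟩
  · -- inside, moving right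
    simp only at hi hst
    subst hWe
    subst hi
    rw [tape_inner] at hsym
    obtain rfl : s = Sym.letter s₀ := (Option.some.inj hsym).symm
    rcases hmove with ⟨rfl, hm⟩ | ⟨rfl, hm⟩ | ⟨rfl, hm⟩
    · -- left move: a turn
      exfalso
      have hne : i' ≠ u.length + 1 + W₁.length := by omega
      have hnlt : ¬ u.length + 1 + W₁.length < i' := by omega
      refine hturn hne (by rw [hd]; simp [hnlt]) ?_
      simp only [List.length_append, List.length_cons]
      omega
    · -- right move
      subst hm
      have hne : ¬ u.length + 1 + W₁.length + 1 = u.length + 1 + W₁.length := by omega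
      have hlt' : u.length + 1 + W₁.length < u.length + 1 + W₁.length + 1 := by omega
      simp only [hne, hlt', if_false, decide_true]
      have hb : BR A (W₁ ++ [s₀]) (some p) (some q') := by
        rw [BR_append, BR_singleton]
        exact ⟨some p₁, hbeh, q, hst, htr⟩
      cases W₂ with
      | nil =>
        right; left
        refine ⟨by simp only [List.length_append, List.length_cons, List.length_nil]; omega, ?_⟩
        have := trav_R u W' v p q' (hR _ _ hb)
        have e1 : u.length + 1 + W₁.length + 1 - (W₁ ++ [s₀]).length + W'.length =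
            u.length + W'.length + 1 := by
          simp only [List.length_append, List.length_cons, List.length_nil]; omega
        simp only [e1]
        exact ReflTransGen.trans hre this
      | cons s₂ W₃ =>
        right; right; left
        refine ⟨W₁ ++ [s₀], s₂, W₃, by simp, by simp; omega, rfl, p, q', hre, hb,
          ReflTransGen.refl⟩
    · -- stationary
      subst hm
      simp only [if_true]
      right; right; left
      exact ⟨W₁, s₀, W₂, rfl, rfl, hd, p, p₁, hre, hbeh, ReflTransGen.tail hst htr⟩
  · -- inside, moving left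
    simp only at hi hst
    subst hWe
    subst hi
    rw [tape_inner] at hsym
    obtain rfl : s = Sym.letter s₀ := (Option.some.inj hsym).symm
    rcases hmove with ⟨rfl, hm⟩ | ⟨rfl, hm⟩ | ⟨rfl, hm⟩
    · -- left move
      have hne : ¬ i' = u.length + 1 + W₁.length := by omega
      have hnlt : ¬ u.length + 1 + W₁.length < i' := by omega
      simp only [hne, hnlt, if_false, decide_false]
      have hb : BL A (s₀ :: W₂) (some p) (some q') := by
        rw [BL_cons]
        exact ⟨some p₁, hbeh, q, hst, htr⟩
      rcases List.eq_nil_or_concat' W₁ with rfl | ⟨W₀, s₁, rfl⟩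
      · simp only [List.length_nil] at hm
        left
        refine ⟨by simp only; omega, ?_⟩
        have hb' : BL A W' (some p) (some q') := hL _ _ (by simpa using hb)
        have := trav_L u W' v p q' hb'
        have e1 : i' = u.length := by omega
        rw [e1]
        exact ReflTransGen.trans hre this
      · simp only [List.length_append, List.length_cons, List.length_nil] at hm
        right; right; right
        exact ⟨W₀, s₁, s₀ :: W₂, by simp, by simp only; omega, rfl, p, q', hre, hb,
          ReflTransGen.refl⟩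
    · -- right move: a turn
      exfalso
      subst hm
      have hne : u.length + 1 + W₁.length + 1 ≠ u.length + 1 + W₁.length := by omega
      have hlt' : u.length + 1 + W₁.length < u.length + 1 + W₁.length + 1 := by omega
      refine hturn hne (by rw [hd]; simp [hlt']) ?_
      simp only [List.length_append, List.length_cons]
      omega
    · -- stationary
      subst hm
      simp only [if_true]
      right; right; right
      exact ⟨W₁, s₀, W₂, rfl, rfl, hd, p, p₁, hre, hbeh, ReflTransGen.tail hst htr⟩

theorem sinv_accept {u W W' v : List Sig}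
    (hR : ∀ p z, BR A W (some p) z → BR A W' (some p) z)
    (hL : ∀ p z, BL A W (some p) z → BL A W' (some p) z)
    {d : Option Bool} {c : Q × ℕ} (h : SInv A u W W' v d c) (hc : A.acc c.1) :
    A.Accepts (u ++ W' ++ v) := by
  rcases h with ⟨_, hre⟩ | ⟨_, hre⟩ | ⟨W₁, s₀, W₂, hWe, _, _, p, p₁, hre, hbeh, hst⟩ |
    ⟨W₁, s₀, W₂, hWe, _, _, p, p₁, hre, hbeh, hst⟩
  · exact accepts_of_reach hre hc
  · exact accepts_of_reach hre hc
  · subst hWe
    have hb : BR A (W₁ ++ s₀ :: W₂) (some p) none := by
      rw [BR_append, BR_cons]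
      exact ⟨some p₁, hbeh, none, ⟨c.1, hst, hc⟩, (BR_none A W₂ _).2 rfl⟩
    obtain ⟨q, i, h1, h2⟩ := trav_R_acc u W' v p (hR _ _ hb)
    exact accepts_of_reach (c := (q, i)) (ReflTransGen.trans hre h1) h2
  · subst hWe
    have hb : BL A (W₁ ++ s₀ :: W₂) (some p) none := by
      rw [BL_append, BL_cons]
      exact ⟨none, ⟨some p₁, hbeh, ⟨c.1, hst, hc⟩⟩, (BL_none A W₁ _).2 rfl⟩
    obtain ⟨q, i, h1, h2⟩ := trav_L_acc u W' v p (hL _ _ hb)
    exact accepts_of_reach (c := (q, i)) (ReflTransGen.trans hre h1) h2

theorem splice_run {u W W' v : List Sig} (hW : W ≠ [])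
    (hR : ∀ p z, BR A W (some p) z → BR A W' (some p) z)
    (hL : ∀ p z, BL A W (some p) z → BL A W' (some p) z)
    (ρ : List (Q × ℕ)) (c : Q × ℕ) (d : Option Bool)
    (hchain : (c :: ρ).IsChain (A.Step (u ++ W ++ v)))
    (hinv : SInv A u W W' v d c)
    (hT : ∀ x ∈ turnCellsAux d ((c :: ρ).map Prod.snd),
      ¬ (u.length + 1 ≤ x ∧ x ≤ u.length + W.length))
    (hlast : ∃ c' ∈ (c :: ρ).getLast?, A.acc c'.1) :
    A.Accepts (u ++ W' ++ v) := by
  induction ρ generalizing c d with
  | nil =>
    obtain ⟨c', hc', hacc⟩ := hlast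
    simp at hc'
    subst hc'
    exact sinv_accept hR hL hinv hacc
  | cons c₁ ρ ih =>
    rw [List.isChain_cons_cons] at hchain
    obtain ⟨hstep, hchain⟩ := hchain
    have hlast' : ∃ c' ∈ (c₁ :: ρ).getLast?, A.acc c'.1 := by
      obtain ⟨c', hc', hacc⟩ := hlast
      refine ⟨c', ?_, hacc⟩
      rwa [List.getLast?_cons_cons] at hc'
    simp only [List.map_cons, turnCellsAux] at hT
    by_cases h1 : c₁.2 = c.2
    · simp only [h1, if_true] at hT
      have hnew := sinv_step hW hR hL hinv hstep (fun h => absurd h1 h)
      simp only [h1, if_true] at hnew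
      refine ih c₁ d hchain hnew ?_ hlast'
      simpa [h1] using hT
    · simp only [h1, if_false] at hT
      by_cases h2 : d = some (!decide (c.2 < c₁.2))
      · simp only [h2, if_true, List.mem_cons, forall_eq_or_imp] at hT
        have hnew := sinv_step hW hR hL hinv hstep (fun _ _ => hT.1)
        simp only [h1, if_false] at hnew
        exact ih c₁ _ hchain hnew hT.2 hlast'
      · simp only [h2, if_false] at hT
        have hnew := sinv_step hW hR hL hinv hstep (fun _ h => absurd h h2)
        simp only [h1, if_false] at hnew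
        exact ih c₁ _ hchain hnew hT hlast'

/-- The splice lemma. -/
theorem splice {u W W' v : List Sig} (hW : W ≠ [])
    (hR : ∀ p z, BR A W (some p) z → BR A W' (some p) z)
    (hL : ∀ p z, BL A W (some p) z → BL A W' (some p) z)
    (ρ : List (Q × ℕ)) (hρ : A.IsAcceptingRun (u ++ W ++ v) ρ)
    (hT : ∀ x ∈ turnCellsAux none (ρ.map Prod.snd),
      ¬ (u.length + 1 ≤ x ∧ x ≤ u.length + W.length)) :
    A.Accepts (u ++ W' ++ v) := by
  obtain ⟨hhead, hchain, hlast⟩ := hρ
  cases ρ with
  | nil => simp at hhead
  | cons c ρ =>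
    simp only [List.head?_cons, Option.some.injEq] at hhead
    subst hhead
    refine splice_run hW hR hL ρ _ none hchain ?_ hT hlast
    left
    exact ⟨Nat.zero_le _, ReflTransGen.refl⟩

end Vale.Agent.Lib.P343
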